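import Mathlib

/-! The pick probability (uniform subsets of prescribed sizes of the classes) and the weighted
number of target sets. -/

namespace Vale.Agent.P181.TS.H737

open Finset

/-- `C(a, n) ≥ exp (-(2 n (x + n) / e)) C(A, n)` for `a = A - x`, `A ≥ e`, `x + n ≤ 7 e / 10`. -/
theorem choose_ratio (e A a x n : ℕ) (he : 0 < e) (hA : e ≤ A) (ha : a + x = A)
    (hx : 10 * (x + n) ≤ 7 * e) :
    Real.exp (-(2 * (n : ℝ) * (x + n) / e)) * (A.choose n : ℝ) ≤ (a.choose n : ℝ) := by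
  have heR : (0 : ℝ) < e := by exact_mod_cast he
  have hAR : (0 : ℝ) < A := by exact_mod_cast lt_of_lt_of_le he hA
  set y : ℝ := ((x : ℝ) + n) / e with hy
  have hy0 : 0 ≤ y := by positivity
  have hy1 : y ≤ 7 / 10 := by
    rw [hy, div_le_iff₀ heR]
    have : (10 * (x + n) : ℝ) ≤ 7 * e := by exact_mod_cast hx
    linarith
  have h1 : Real.exp (-(2 * y)) ≤ 1 - y := by
    have h2 := Real.quadratic_le_exp_of_nonneg (x := 2 * y) (by linarith)
    rw [Real.exp_neg, inv_eq_one_div, div_le_iff₀ (Real.exp_pos _)]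
    have h3 : (1 : ℝ) ≤ (1 - y) * (1 + 2 * y + (2 * y) ^ 2 / 2) := by nlinarith [mul_nonneg hy0 hy0]
    exact h3.trans (mul_le_mul_of_nonneg_left h2 (by linarith))
  have h4 : (1 - y) * A ≤ ((a + 1 - n : ℕ) : ℝ) := by
    have hn : n ≤ a + 1 := by omega
    rw [Nat.cast_sub hn]
    push_cast
    have h5 : (x : ℝ) + n ≤ y * A := by
      have : (x : ℝ) + n = y * e := by rw [hy, div_mul_cancel₀ _ heR.ne']
      rw [this]
      exact mul_le_mul_of_nonneg_left (by exact_mod_cast hA) hy0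
    have h6 : (a : ℝ) + x = A := by exact_mod_cast ha
    nlinarith
  have h7 : (((a + 1 - n : ℕ) : ℝ)) ^ n ≤ (n.factorial : ℝ) * (a.choose n : ℝ) := by
    have := Nat.pow_sub_le_descFactorial a n
    rw [Nat.descFactorial_eq_factorial_mul_choose] at this
    exact_mod_cast this
  have h8 : (n.factorial : ℝ) * (A.choose n : ℝ) ≤ (A : ℝ) ^ n := by
    have := Nat.descFactorial_le_pow A n
    rw [Nat.descFactorial_eq_factorial_mul_choose] at this
    exact_mod_cast this
  have hf : (0 : ℝ) < n.factorial := by exact_mod_cast n.factorial_pos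
  have h9 : Real.exp (-(2 * (n : ℝ) * (x + n) / e)) = Real.exp (-(2 * y)) ^ n := by
    rw [← Real.exp_nat_mul]
    congr 1
    rw [hy]
    ring
  rw [h9]
  have h10 : Real.exp (-(2 * y)) ^ n * (A : ℝ) ^ n ≤ (((a + 1 - n : ℕ) : ℝ)) ^ n := by
    rw [← mul_pow]
    refine pow_le_pow_left₀ (by positivity) ?_ n
    exact (mul_le_mul_of_nonneg_right h1 hAR.le).trans h4
  have h11 : (n.factorial : ℝ) * (Real.exp (-(2 * y)) ^ n * (A.choose n : ℝ)) ≤
      (n.factorial : ℝ) * (a.choose n : ℝ) := by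
    calc (n.factorial : ℝ) * (Real.exp (-(2 * y)) ^ n * (A.choose n : ℝ)) =
          Real.exp (-(2 * y)) ^ n * ((n.factorial : ℝ) * (A.choose n : ℝ)) := by ring
      _ ≤ Real.exp (-(2 * y)) ^ n * (A : ℝ) ^ n :=
          mul_le_mul_of_nonneg_left h8 (by positivity)
      _ ≤ _ := h10.trans h7
  exact le_of_mul_le_mul_left h11 hf

section

variable {α β : Type*} [Fintype α] [DecidableEq α] [Fintype β] [DecidableEq β]

/-- **[PICK]** -/
theorem pick (E : β → Finset α) (T : Finset α) (i : β) (n : β → ℕ) (e r n0 L : ℕ)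
    (hdis : ∀ j k, j ≠ k → Disjoint (E j) (E k))
    (he : 0 < e) (hr : r ≤ e) (hE : ∀ j, e ≤ #(E j) ∧ #(E j) ≤ e + r) (hT : #T ≤ e + r)
    (harg : ∀ j, #(T ∩ E j) ≤ #(T ∩ E i)) (hni : n i = 1) (hn : ∀ j, n j ≤ n0)
    (hL : ∑ j, n j ≤ L) (h7 : 5 * (r + 2 * n0) ≤ 2 * e) :
    (#(E i \ T) : ℝ) * Real.exp (-(2 * n0 * (e + r + L) / e)) *
      ∏ j, ((#(E j)).choose (n j) : ℝ) ≤ 2 * e * ∏ j, ((#(E j \ T)).choose (n j) : ℝ) := by
  have heR : (0 : ℝ) < e := by exact_mod_cast he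
  have hsum : ∀ s : Finset β, ∑ j ∈ s, #(T ∩ E j) ≤ #T := by
    intro s
    rw [← card_biUnion]
    · exact card_le_card (biUnion_subset.2 fun j _ => inter_subset_left)
    · intro j _ k _ hjk
      exact Disjoint.mono inter_subset_right inter_subset_right (hdis j k hjk)
  -- the factors `j ≠ i`
  have hj : ∀ j ∈ univ.erase i,
      Real.exp (-(2 * (n j : ℝ) * ((#(T ∩ E j) : ℕ) + n j) / e)) * ((#(E j)).choose (n j) : ℝ) ≤
        ((#(E j \ T)).choose (n j) : ℝ) := by
    intro j hj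
    have hji : j ≠ i := ne_of_mem_erase hj
    refine choose_ratio e _ _ _ _ he (hE j).1 ?_ ?_
    · rw [inter_comm T (E j), card_sdiff_add_card_inter]
    · have h1 : #(T ∩ E j) + #(T ∩ E i) ≤ #T := by
        have := hsum {j, i}
        rwa [sum_pair hji] at this
      have h2 := harg j
      have h3 := hn j
      omega
  have hi : (#(E i \ T) : ℝ) * ((#(E i)).choose (n i) : ℝ) ≤
      2 * e * ((#(E i \ T)).choose (n i) : ℝ) := by
    rw [hni, Nat.choose_one_right, Nat.choose_one_right]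
    have h1 : (#(E i) : ℝ) ≤ 2 * e := by
      have := (hE i).2
      have h2 : #(E i) ≤ 2 * e := by omega
      exact_mod_cast h2
    have h3 : (0 : ℝ) ≤ (#(E i \ T) : ℝ) := by positivity
    nlinarith
  have hprod : Real.exp (-(2 * n0 * (e + r + L) / e)) *
      ∏ j ∈ univ.erase i, ((#(E j)).choose (n j) : ℝ) ≤
      ∏ j ∈ univ.erase i, ((#(E j \ T)).choose (n j) : ℝ) := by
    have h1 := prod_le_prod (fun j _ => by positivity) hj
    rw [prod_mul_distrib, ← Real.exp_sum] at h1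
    refine le_trans (mul_le_mul_of_nonneg_right (Real.exp_le_exp.2 ?_) (by positivity)) h1
    rw [sum_neg_distrib, neg_le_neg_iff, ← sum_div]
    refine div_le_div_of_nonneg_right ?_ heR.le
    have h2 : ∀ j ∈ univ.erase i, 2 * (n j : ℝ) * ((#(T ∩ E j) : ℕ) + n j) ≤
        2 * n0 * ((#(T ∩ E j) : ℕ) + n j) := by
      intro j _
      have : (n j : ℝ) ≤ n0 := by exact_mod_cast hn j
      have h3 : (0 : ℝ) ≤ ((#(T ∩ E j) : ℕ) : ℝ) + n j := by positivity
      nlinarith
    refine (sum_le_sum h2).trans ?_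
    rw [← mul_sum, sum_add_distrib]
    have h4 : (∑ j ∈ univ.erase i, ((#(T ∩ E j) : ℕ) : ℝ)) ≤ e + r := by
      have : ∑ j ∈ univ.erase i, #(T ∩ E j) ≤ e + r := (hsum _).trans hT
      exact_mod_cast this
    have h5 : (∑ j ∈ univ.erase i, (n j : ℝ)) ≤ L := by
      have : ∑ j ∈ univ.erase i, n j ≤ L :=
        (sum_le_sum_of_subset (erase_subset _ _)).trans hL
      exact_mod_cast this
    have h6 : (0 : ℝ) ≤ 2 * n0 := by positivity
    nlinarith
  rw [← mul_prod_erase univ (fun j => ((#(E j)).choose (n j) : ℝ)) (mem_univ i),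
    ← mul_prod_erase univ (fun j => ((#(E j \ T)).choose (n j) : ℝ)) (mem_univ i)]
  calc (#(E i \ T) : ℝ) * Real.exp (-(2 * n0 * (e + r + L) / e)) *
        (((#(E i)).choose (n i) : ℝ) * ∏ j ∈ univ.erase i, ((#(E j)).choose (n j) : ℝ)) =
        ((#(E i \ T) : ℝ) * ((#(E i)).choose (n i) : ℝ)) *
          (Real.exp (-(2 * n0 * (e + r + L) / e)) *
            ∏ j ∈ univ.erase i, ((#(E j)).choose (n j) : ℝ)) := by ring
    _ ≤ (2 * e * ((#(E i \ T)).choose (n i) : ℝ)) *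
          ∏ j ∈ univ.erase i, ((#(E j \ T)).choose (n j) : ℝ) :=
        mul_le_mul hi hprod (by positivity) (by positivity)
    _ = _ := by ring

/-- **[SUM]** the weighted number of targets `(i, T)`. -/
theorem sum_targets (E : β → Finset α) (y z : ℝ) (hy : 0 ≤ y) (hz : 0 ≤ z) (hz1 : z ≤ 1)
    (hyz : y ≤ z ^ 5) :
    ∑ p ∈ (univ : Finset (β × Finset α)).filter
        (fun p => 1 ≤ #(E p.1 \ p.2) ∧ #(p.2 \ E p.1) ≤ 2 * #(E p.1 \ p.2)),
      y ^ #(E p.1 \ p.2) ≤ Fintype.card β * (z ^ 2 * (1 + z) ^ Fintype.card α) := by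
  have h1 : ∑ p ∈ (univ : Finset (β × Finset α)).filter
        (fun p => 1 ≤ #(E p.1 \ p.2) ∧ #(p.2 \ E p.1) ≤ 2 * #(E p.1 \ p.2)),
      y ^ #(E p.1 \ p.2) ≤ ∑ p : β × Finset α, z ^ 2 * z ^ #(symmDiff p.2 (E p.1)) := by
    rw [sum_filter]
    refine sum_le_sum fun p _ => ?_
    split_ifs with h
    · have h2 : #(symmDiff p.2 (E p.1)) = #(p.2 \ E p.1) + #(E p.1 \ p.2) := by
        rw [symmDiff_def, sup_eq_union, card_union_of_disjoint]
        exact disjoint_sdiff_sdiff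
      calc y ^ #(E p.1 \ p.2) ≤ (z ^ 5) ^ #(E p.1 \ p.2) := pow_le_pow_left₀ hy hyz _
        _ = z ^ (5 * #(E p.1 \ p.2)) := by rw [← pow_mul]
        _ ≤ z ^ (2 + #(symmDiff p.2 (E p.1))) :=
            pow_le_pow_of_le_one hz hz1 (by rw [h2]; omega)
        _ = z ^ 2 * z ^ #(symmDiff p.2 (E p.1)) := pow_add _ _ _
    · positivity
  refine h1.trans (le_of_eq ?_)
  rw [Fintype.sum_prod_type]
  have h3 : ∀ i : β, ∑ T : Finset α, z ^ 2 * z ^ #(symmDiff T (E i)) =
      z ^ 2 * (1 + z) ^ Fintype.card α := by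
    intro i
    rw [← mul_sum]
    congr 1
    have h4 : ∑ T : Finset α, z ^ #(symmDiff T (E i)) = ∑ T : Finset α, z ^ #T :=
      Fintype.sum_equiv (Equiv.ofBijective (fun T => symmDiff T (E i))
        (Function.Involutive.bijective fun T => by simp)) _ _ fun T => rfl
    rw [h4]
    have h5 := Finset.sum_pow_mul_eq_add_pow z 1 (univ : Finset α)
    simp only [one_pow, mul_one, powerset_univ, card_univ] at h5
    rw [add_comm 1 z, ← h5]
  rw [sum_congr rfl fun i _ => h3 i, sum_const, card_univ, nsmul_eq_mul]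

end

end Vale.Agent.P181.TS.H737
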