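import Mathlib

/-! Two tail bounds for independent uniform choices (union bound tools of the random columns). -/

namespace Vale.Agent.P181.TS.H737

open Finset

variable {γ δ : Type*} [Fintype γ] [DecidableEq γ] [DecidableEq δ]

open Classical in
/-- Lower tail: at each site `c` the event `P c` has probability at least `q c`. -/
theorem low_tail (Ω : γ → Finset δ) (P : γ → δ → Prop) (q : γ → ℝ)
    (hq : ∀ c, q c * (#(Ω c) : ℝ) ≤ (#((Ω c).filter (P c)) : ℝ)) (k : ℕ) :
    (#((Fintype.piFinset Ω).filter fun ω => #(univ.filter fun c => P c (ω c)) < k) : ℝ) ≤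
      2 ^ k * Real.exp (-(∑ c, q c) / 2) * (#(Fintype.piFinset Ω) : ℝ) := by
  set w : (c : γ) → δ → ℝ := fun c x => if P c x then (1 / 2 : ℝ) else 1 with hw
  have h0 : ∀ c x, 0 ≤ w c x := by
    intro c x; simp only [hw]; split_ifs <;> norm_num
  have h1 : (#((Fintype.piFinset Ω).filter fun ω => #(univ.filter fun c => P c (ω c)) < k) : ℝ) ≤
      ∑ ω ∈ Fintype.piFinset Ω, 2 ^ k * ∏ c, w c (ω c) := by
    rw [card_filter, Nat.cast_sum]
    refine sum_le_sum fun ω _ => ?_
    have hp : ∏ c, w c (ω c) = (1 / 2 : ℝ) ^ #(univ.filter fun c => P c (ω c)) := by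
      simp only [hw]
      rw [prod_ite]
      simp
    rw [hp]
    split_ifs with h
    · rw [Nat.cast_one]
      have : (2 : ℝ) ^ k * (1 / 2) ^ #(univ.filter fun c => P c (ω c)) =
          2 ^ (k - #(univ.filter fun c => P c (ω c))) := by
        rw [one_div, inv_pow, ← div_eq_mul_inv, pow_sub₀ _ (by norm_num) h.le, div_eq_mul_inv]
      rw [this]
      exact one_le_pow₀ (by norm_num)
    · rw [Nat.cast_zero]; positivity
  refine h1.trans ?_
  rw [← mul_sum, ← prod_univ_sum, mul_assoc]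
  refine mul_le_mul_of_nonneg_left ?_ (by positivity)
  have h2 : ∀ c, ∑ x ∈ Ω c, w c x ≤ Real.exp (-(q c) / 2) * (#(Ω c) : ℝ) := by
    intro c
    have e1 : ∑ x ∈ Ω c, w c x = (#(Ω c) : ℝ) - (#((Ω c).filter (P c)) : ℝ) / 2 := by
      have hx : ∀ x ∈ Ω c, w c x = 1 - (1 / 2 : ℝ) * (if P c x then 1 else 0) := by
        intro x _; simp only [hw]; split_ifs <;> norm_num
      rw [sum_congr rfl hx, sum_sub_distrib, ← mul_sum, sum_const, nsmul_eq_mul, mul_one,
        ← sum_filter, sum_const, nsmul_eq_mul, mul_one]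
      ring
    rw [e1]
    have e2 : 1 - q c / 2 ≤ Real.exp (-(q c) / 2) := by
      have := Real.add_one_le_exp (-(q c) / 2); linarith
    have e3 : (0 : ℝ) ≤ (#(Ω c) : ℝ) := by positivity
    nlinarith [hq c, mul_le_mul_of_nonneg_right e2 e3]
  calc ∏ c, ∑ x ∈ Ω c, w c x ≤ ∏ c, (Real.exp (-(q c) / 2) * (#(Ω c) : ℝ)) :=
        prod_le_prod (fun c _ => sum_nonneg fun x _ => h0 c x) fun c _ => h2 c
    _ = Real.exp (-(∑ c, q c) / 2) * (#(Fintype.piFinset Ω) : ℝ) := by
        rw [prod_mul_distrib, ← Real.exp_sum, Fintype.card_piFinset, Nat.cast_prod]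
        congr 2
        rw [neg_div, sum_div, ← sum_neg_distrib]
        exact sum_congr rfl fun c _ => by ring

open Classical in
/-- Upper tail: at each site `c` the event `P c` has probability at most `q c`. -/
theorem up_tail (Ω : γ → Finset δ) (P : γ → δ → Prop) (q : γ → ℝ)
    (hq : ∀ c, (#((Ω c).filter (P c)) : ℝ) ≤ q c * (#(Ω c) : ℝ)) (d : ℕ) :
    (#((Fintype.piFinset Ω).filter fun ω => d < #(univ.filter fun c => P c (ω c))) : ℝ) ≤
      Real.exp (∑ c, q c) / 2 ^ (d + 1) * (#(Fintype.piFinset Ω) : ℝ) := by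
  set w : (c : γ) → δ → ℝ := fun c x => if P c x then (2 : ℝ) else 1 with hw
  have h0 : ∀ c x, 0 ≤ w c x := by
    intro c x; simp only [hw]; split_ifs <;> norm_num
  have h1 : (#((Fintype.piFinset Ω).filter fun ω => d < #(univ.filter fun c => P c (ω c))) : ℝ) ≤
      ∑ ω ∈ Fintype.piFinset Ω, (1 / 2 ^ (d + 1)) * ∏ c, w c (ω c) := by
    rw [card_filter, Nat.cast_sum]
    refine sum_le_sum fun ω _ => ?_
    have hp : ∏ c, w c (ω c) = (2 : ℝ) ^ #(univ.filter fun c => P c (ω c)) := by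
      simp only [hw]
      rw [prod_ite]
      simp
    rw [hp]
    split_ifs with h
    · rw [Nat.cast_one, one_div, ← div_eq_inv_mul, le_div_iff₀ (by positivity), one_mul]
      exact pow_le_pow_right₀ (by norm_num) h
    · rw [Nat.cast_zero]; positivity
  refine h1.trans ?_
  rw [← mul_sum, ← prod_univ_sum]
  have h2 : ∀ c, ∑ x ∈ Ω c, w c x ≤ Real.exp (q c) * (#(Ω c) : ℝ) := by
    intro c
    have e1 : ∑ x ∈ Ω c, w c x = (#(Ω c) : ℝ) + (#((Ω c).filter (P c)) : ℝ) := by
      have hx : ∀ x ∈ Ω c, w c x = 1 + (if P c x then (1 : ℝ) else 0) := by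
        intro x _; simp only [hw]; split_ifs <;> norm_num
      rw [sum_congr rfl hx, sum_add_distrib, sum_const, nsmul_eq_mul, mul_one,
        ← sum_filter, sum_const, nsmul_eq_mul, mul_one]
    rw [e1]
    have e2 : 1 + q c ≤ Real.exp (q c) := by
      have := Real.add_one_le_exp (q c); linarith
    have e3 : (0 : ℝ) ≤ (#(Ω c) : ℝ) := by positivity
    nlinarith [hq c, mul_le_mul_of_nonneg_right e2 e3]
  calc 1 / 2 ^ (d + 1) * ∏ c, ∑ x ∈ Ω c, w c x ≤
        1 / 2 ^ (d + 1) * ∏ c, (Real.exp (q c) * (#(Ω c) : ℝ)) :=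
        mul_le_mul_of_nonneg_left
          (prod_le_prod (fun c _ => sum_nonneg fun x _ => h0 c x) fun c _ => h2 c) (by positivity)
    _ = Real.exp (∑ c, q c) / 2 ^ (d + 1) * (#(Fintype.piFinset Ω) : ℝ) := by
        rw [prod_mul_distrib, ← Real.exp_sum, Fintype.card_piFinset, Nat.cast_prod]
        ring

end Vale.Agent.P181.TS.H737
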